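import Vale.Agent.P050.Deg.Prod
import Vale.Agent.P050.Deg.Plus

namespace Vale.Agent.Results.P050.BipartiteComplements

open Vale.Agent.P050 Vale.Agent.P050.Lev Vale.Agent.P050.Join Vale.Agent.P050.Tmpl
  Vale.Agent.P050.Deg SimpleGraph

/-- **New classes of Sidorenko graphs, and a bound for all bipartite graphs.**
Let `H` be a bipartite graph. The graph `H` satisfies the two-sided Sidorenko inequality, hence the
Sidorenko inequality for all finite graphs, in each of the following cases. (1) Two vertices of the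
same part have at most one non-neighbour each in the other part. (2) `H` has at least
`m n - 2 max m n + 2` edges, `m`, `n` the numbers of vertices of the two parts, or at least
`m n - (m + n) + 1 = (m - 1) (n - 1)` edges, and it is not the case that the bipartite complement
consists of one component with two vertices and of one or more cycles, all with at least ten
vertices. (3) The bipartite complement of `H` has an acyclic component whose number of vertices is
not two; or a component which is a cycle of length six or eight; or a component without induced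
matching of two edges, and this component is not complete bipartite with parts of the same size, or
there is another such component. (4) There is a nonempty set `D` of vertices of one part,
injectively numbered by `r`, such that for each `d ∈ D` there is `e ∈ D` such that each neighbour
`b` of `d` with a neighbour before `d` in `D` is adjacent to `e`, and `e` is before `d`; and the
vertices in `F`, a set of vertices of the other part which are adjacent to all vertices outside
`D`, have together at least `|D|` neighbours in `D`, with multiplicity. (5) There is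
a chordal graph `K` on one part, with perfect elimination order given by `r`, such that the
neighbourhood of each vertex `b` of the other part is a clique of `K`, and for each `k ≥ 1` at most
`∑ b, (deg b - k)⁺` vertices have `k` or more earlier neighbours in `K`. (6) There is a set `C` of
vertices such that `H[C]` satisfies the two-sided Sidorenko inequality and has an edge and at least
as many edges as vertices on either side, the vertices outside `C` on the side `false` are adjacent
to all vertices of `C` on the side `true`, and each vertex outside `C` on the side `true` is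
adjacent to all, to none or to exactly one (not isolated in `H[C]`) of the vertices of `C` on the
side `false`. (7) For all bipartite graphs `H` with at most `m` vertices in one part, the disjoint
union of `H` and `K_{2,m}` satisfies the two-sided Sidorenko inequality, hence
`p(X) ^ (e(H) + 2 m) ≤ t(H, X) t(K_{2,m}, X)` for all finite graphs `X`. (8) If `D` is as in (4) but
the vertices in `F` have together at least `|D| - j` neighbours in `D`, with multiplicity, and if
`a` vertices of the part containing `D` are not in `D`, then the disjoint union of `H` and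
`K_{j+1,a+1}` satisfies the two-sided Sidorenko inequality, hence
`p(X) ^ (e(H) + (j + 1) (a + 1)) ≤ t(H, X) t(K_{j+1,a+1}, X)` for all finite graphs `X`. -/
theorem result :
    (∀ {V : Type} [Fintype V] [DecidableEq V] (H : SimpleGraph V) (s : V → Bool),
      (∀ u v, H.Adj u v → s u ≠ s v) → ∀ q₁ q₂ : V, q₁ ≠ q₂ → s q₁ = s q₂ →
      (∀ u v, s u ≠ s q₁ → s v ≠ s q₁ → ¬ H.Adj q₁ u → ¬ H.Adj q₁ v → u = v) →
      (∀ u v, s u ≠ s q₁ → s v ≠ s q₁ → ¬ H.Adj q₂ u → ¬ H.Adj q₂ v → u = v) →
      GSid H s ∧ ∀ (U : Type) [Finite U] [Nonempty U] (X : SimpleGraph U),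
        edgeDensity X ^ Nat.card H.edgeSet ≤ homDensity H X) ∧
    (∀ {V : Type} [Fintype V] [DecidableEq V] (H : SimpleGraph V) (s : V → Bool),
      (∀ u v, H.Adj u v → s u ≠ s v) →
      ((Finset.univ.filter fun v => s v = false).card *
        (Finset.univ.filter fun v => s v = true).card + 2 ≤
          Nat.card H.edgeSet + 2 * max (Finset.univ.filter fun v => s v = false).card
            (Finset.univ.filter fun v => s v = true).card ∨
        (Finset.univ.filter fun v => s v = false).card *
          (Finset.univ.filter fun v => s v = true).card + 1 ≤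
            Nat.card H.edgeSet + Fintype.card V ∧
          ¬ ((∃! c : (bcompl H s).ConnectedComponent, Nat.card c.supp = 2) ∧
            (∃ c : (bcompl H s).ConnectedComponent, Nat.card c.supp ≠ 2) ∧
            ∀ c : (bcompl H s).ConnectedComponent, Nat.card c.supp = 2 ∨
              (10 ≤ Nat.card c.supp ∧
                ∀ v ∈ c.supp, Nat.card {u : V // (bcompl H s).Adj v u} = 2))) →
      GSid H s ∧ ∀ (U : Type) [Finite U] [Nonempty U] (X : SimpleGraph U),
        edgeDensity X ^ Nat.card H.edgeSet ≤ homDensity H X) ∧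
    (∀ {V : Type} [Fintype V] [DecidableEq V] (H : SimpleGraph V) (s : V → Bool),
      (∀ u v, H.Adj u v → s u ≠ s v) → ∀ c : (bcompl H s).ConnectedComponent,
      ((c.toSimpleGraph.IsAcyclic ∧ Nat.card c.supp ≠ 2) ∨
        ((∀ v ∈ c.supp, Nat.card {u : V // (bcompl H s).Adj v u} = 2) ∧
          (Nat.card c.supp = 6 ∨ Nat.card c.supp = 8)) ∨
        (Chain H s c.supp ∧ ((∃ u ∈ c.supp, ∃ v ∈ c.supp, H.Adj u v) ∨
          Nat.card {v : V // v ∈ c.supp ∧ s v = false} ≠
            Nat.card {v : V // v ∈ c.supp ∧ s v = true} ∨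
          ∃ c' : (bcompl H s).ConnectedComponent, c' ≠ c ∧ Chain H s c'.supp))) →
      GSid H s ∧ ∀ (U : Type) [Finite U] [Nonempty U] (X : SimpleGraph U),
        edgeDensity X ^ Nat.card H.edgeSet ≤ homDensity H X) ∧
    (∀ {V : Type} [Fintype V] [DecidableEq V] (H : SimpleGraph V) (s : V → Bool),
      (∀ u v, H.Adj u v → s u ≠ s v) → ∀ (c : Bool) (D : Finset V), (∀ d ∈ D, s d = c) →
      D.Nonempty → ∀ r : V → ℕ, (∀ d ∈ D, ∀ e ∈ D, r d = r e → d = e) →
      (∀ d ∈ D, ∃ e ∈ D, ∀ b, H.Adj b d → (∃ f ∈ D, r f < r d ∧ H.Adj b f) →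
        r e < r d ∧ H.Adj b e) →
      ∀ F : Finset V, (∀ b ∈ F, s b ≠ c ∧ ∀ a, s a = c → a ∉ D → H.Adj b a) →
      D.card ≤ ∑ b ∈ F, Nat.card {d : V // d ∈ D ∧ H.Adj b d} →
      GSid H s ∧ ∀ (U : Type) [Finite U] [Nonempty U] (X : SimpleGraph U),
        edgeDensity X ^ Nat.card H.edgeSet ≤ homDensity H X) ∧
    (∀ {V : Type} [Fintype V] [DecidableEq V] (H : SimpleGraph V) (s : V → Bool),
      (∀ u v, H.Adj u v → s u ≠ s v) → ∀ (c : Bool) (K : SimpleGraph V) (r : V → ℕ),
      (∀ u v, s u = c → s v = c → r u = r v → u = v) →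
      (∀ a u v, s a = c → s u = c → s v = c → K.Adj a u → K.Adj a v → r u < r a → r v < r a →
        u ≠ v → K.Adj u v) →
      (∀ b u v, s b ≠ c → H.Adj b u → H.Adj b v → u ≠ v → K.Adj u v) →
      (∀ k, 1 ≤ k → Nat.card {a : V // s a = c ∧
        k ≤ Nat.card {u : V // s u = c ∧ K.Adj a u ∧ r u < r a}} ≤
          ∑ b ∈ Finset.univ.filter (fun b => s b ≠ c), (Nat.card {u : V // H.Adj b u} - k)) →
      GSid H s ∧ ∀ (U : Type) [Finite U] [Nonempty U] (X : SimpleGraph U),
        edgeDensity X ^ Nat.card H.edgeSet ≤ homDensity H X) ∧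
    (∀ {V : Type} [Fintype V] [DecidableEq V] (H : SimpleGraph V) (s : V → Bool),
      (∀ u v, H.Adj u v → s u ≠ s v) → ∀ C : Finset V,
      (∀ u, u ∉ C → s u = false → ∀ v ∈ C, s v = true → H.Adj u v) →
      (∀ u, u ∉ C → s u = true → (∀ v ∈ C, s v = false → H.Adj u v) ∨
        (∀ v ∈ C, ¬ H.Adj u v) ∨ ∃ v ∈ C, ∃ w ∈ C, H.Adj v w ∧ ∀ z ∈ C, H.Adj u z ↔ z = v) →
      GSid (H.induce (C : Set V)) (fun v => s v) → (∃ u ∈ C, ∃ v ∈ C, H.Adj u v) →
      (∀ b : Bool, (C.filter fun v => s v = b).card ≤ Nat.card (H.induce (C : Set V)).edgeSet) →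
      GSid H s ∧ ∀ (U : Type) [Finite U] [Nonempty U] (X : SimpleGraph U),
        edgeDensity X ^ Nat.card H.edgeSet ≤ homDensity H X) ∧
    (∀ {V : Type} [Fintype V] [DecidableEq V] (H : SimpleGraph V) (s : V → Bool),
      (∀ u v, H.Adj u v → s u ≠ s v) → ∀ (c : Bool) (m : ℕ), Nat.card {v : V // s v = c} ≤ m →
      GSid (H ⊕g completeBipartiteGraph (Fin 2) (Fin m))
        (Sum.elim s (Sum.elim (fun _ => !c) (fun _ => c))) ∧
      ∀ (U : Type) [Finite U] [Nonempty U] (X : SimpleGraph U),
        edgeDensity X ^ (Nat.card H.edgeSet + 2 * m) ≤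
          homDensity H X * homDensity (completeBipartiteGraph (Fin 2) (Fin m)) X) ∧
    (∀ {V : Type} [Fintype V] [DecidableEq V] (H : SimpleGraph V) (s : V → Bool),
      (∀ u v, H.Adj u v → s u ≠ s v) → ∀ (c : Bool) (D : Finset V), (∀ d ∈ D, s d = c) →
      D.Nonempty → ∀ r : V → ℕ, (∀ d ∈ D, ∀ e ∈ D, r d = r e → d = e) →
      (∀ d ∈ D, ∃ e ∈ D, ∀ b, H.Adj b d → (∃ f ∈ D, r f < r d ∧ H.Adj b f) →
        r e < r d ∧ H.Adj b e) →
      ∀ F : Finset V, (∀ b ∈ F, s b ≠ c ∧ ∀ a, s a = c → a ∉ D → H.Adj b a) →
      ∀ j a : ℕ, Nat.card {v : V // s v = c ∧ v ∉ D} = a →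
      D.card ≤ ∑ b ∈ F, Nat.card {d : V // d ∈ D ∧ H.Adj b d} + j →
      GSid (H ⊕g completeBipartiteGraph (Fin (j + 1)) (Fin (a + 1)))
        (Sum.elim s (Sum.elim (fun _ => !c) (fun _ => c))) ∧
      ∀ (U : Type) [Finite U] [Nonempty U] (X : SimpleGraph U),
        edgeDensity X ^ (Nat.card H.edgeSet + (j + 1) * (a + 1)) ≤ homDensity H X *
          homDensity (completeBipartiteGraph (Fin (j + 1)) (Fin (a + 1))) X) := by
  refine ⟨?_, ?_, ?_, ?_, ?_, ?_, ?_, ?_⟩
  · intro V _ _ H s hs q₁ q₂ hq hqq h1 h2
    have k1 : (nn H s q₁).card ≤ 1 := Finset.card_le_one.2 fun u hu v hv =>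
      h1 u v (mem_nn.1 hu).1 (mem_nn.1 hv).1 (mem_nn.1 hu).2 (mem_nn.1 hv).2
    have k2 : (nn H s q₂).card ≤ 1 := Finset.card_le_one.2 fun u hu v hv =>
      h2 u v (hqq ▸ (mem_nn.1 hu).1) (hqq ▸ (mem_nn.1 hv).1) (mem_nn.1 hu).2 (mem_nn.1 hv).2
    have h := two_few hs hq hqq k1 k2
    exact ⟨h, fun _ _ _ X => sidorenko_of_gsid h X⟩
  · intro V _ _ H s hs hc
    have h : GSid H s := by
      rcases hc with hc | ⟨hc, hK⟩
      · exact dense_max hs hc
      · exact dense_prod hs hc hK
    exact ⟨h, fun _ _ _ X => sidorenko_of_gsid h X⟩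
  · intro V _ _ H s hs c hc
    have h := comp_cyc hs c hc
    exact ⟨h, fun _ _ _ X => sidorenko_of_gsid h X⟩
  · intro V _ _ H s hs c D hDs hD r hr hRI F hF hc
    have h := core_colour hs c D hDs hD r hr hRI F hF hc
    exact ⟨h, fun _ _ _ X => sidorenko_of_gsid h X⟩
  · intro V _ _ H s hs c K r hr hK hN hc
    have h := chordal_colour hs c K r hr hK hN hc
    exact ⟨h, fun _ _ _ X => sidorenko_of_gsid h X⟩
  · intro V _ _ H s hs C hA hB hC he hc
    have h := join_plus hs C hA hB hC he hc
    exact ⟨h, fun _ _ _ X => sidorenko_of_gsid h X⟩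
  · intro V _ _ H s hs c m hm
    exact ⟨union_gsid hs c m hm, fun U _ _ X => union_ineq hs c m hm U X⟩
  · intro V _ _ H s hs c D hDs hD r hr hRI F hF j a ha hc
    exact ⟨plus_gsid hs c D hDs hD r hr hRI F hF j a ha hc,
      fun U _ _ X => plus_ineq hs c D hDs hD r hr hRI F hF j a ha hc U X⟩

end Vale.Agent.Results.P050.BipartiteComplements
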