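import Vale.Agent.P050.Cart.Factor
import Vale.Agent.P050.Lev.ClassGood

namespace Vale.Agent.Results.P050.CartesianProducts

open Vale.Agent.P050 Vale.Agent.P050.Lev Vale.Agent.P050.Cart

/-- (1) If `G` with the 2-colouring `s` satisfies the two-sided Sidorenko inequality and has no
isolated vertices, and `H` with the 2-colouring `t` belongs to the class `Factor`, then the
Cartesian product `G □ H` satisfies the two-sided Sidorenko inequality, hence the Sidorenko
inequality for all finite graphs. (2) The complete bipartite graphs `K_{2,n}` and `K_{3,n}` belong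
to this class. -/
theorem result :
    (∀ (V W : Type) [Fintype V] [DecidableEq V] [Fintype W] [DecidableEq W] (G : SimpleGraph V)
      (H : SimpleGraph W) (s : V → Bool) (t : W → Bool), GSid G s → (∀ v, ∃ w, G.Adj v w) →
      Factor H t →
      GSid (G □ H) (fun p => xor (s p.1) (t p.2)) ∧
        ∀ (U : Type) [Finite U] [Nonempty U] (Γ : SimpleGraph U),
          edgeDensity Γ ^ Nat.card (G □ H).edgeSet ≤ homDensity (G □ H) Γ) ∧
    ∀ n : ℕ, Factor (completeBipartiteGraph (Fin 2) (Fin n)) (fun v => v.isRight) ∧
      Factor (completeBipartiteGraph (Fin 3) (Fin n)) fun v => v.isRight := by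
  constructor
  · intro V W _ _ _ _ G H s t hG hiso hH
    have h := gsid_boxProd G H s t hG hiso hH.fac.1 (hH.fac.2 inferInstance inferInstance)
    exact ⟨h, fun _ _ _ Γ => sidorenko_of_gsid h Γ⟩
  · exact fun n => ⟨factor_two n, Factor.three n⟩

end Vale.Agent.Results.P050.CartesianProducts
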