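import Vale.Agent.P050.Lev.ClassGood

namespace Vale.Agent.Results.P050.LevelClass

open Vale.Agent.P050 Vale.Agent.P050.Lev Vale.Agent.P050.Lev.Cls

/-- (1) Let the vertices of `H` have levels `0, …, N`, all edges joining consecutive levels, such
that level `0` is complete to level `1`, level `N` is complete to level `N - 1`, every vertex of
level at least `2` has a neighbour on the level below and every vertex of level at most `N - 2` has
a neighbour on the level above, and such that the levels `1, …, N - 1` induce a graph glued along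
vertices and edges from pieces `P 0, …, P (k-1)`, each lying on two consecutive levels and inducing
a graph with the two-sided Sidorenko inequality. Then `H` satisfies the two-sided Sidorenko
inequality, hence the Sidorenko inequality for all finite graphs. (2) The same holds for every
graph whose edges, directed upwards, form a member of the class `LevelClass`. -/
theorem result :
    (∀ (V : Type) [Fintype V] [DecidableEq V] (H : SimpleGraph V) (lev : V → ℕ) (N k : ℕ)
      (P : Fin k → Finset V), 2 ≤ N → (∀ v, lev v ≤ N) → (∃ v, lev v = 1) →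
      (∀ u v, H.Adj u v → lev v = lev u + 1 ∨ lev u = lev v + 1) →
      (∀ u v, lev u = 0 → lev v = 1 → H.Adj u v) →
      (∀ u v, lev u + 1 = N → lev v = N → H.Adj u v) →
      (∀ v, 2 ≤ lev v → ∃ u, H.Adj u v ∧ lev v = lev u + 1) →
      (∀ v, lev v + 2 ≤ N → ∃ u, H.Adj v u ∧ lev u = lev v + 1) →
      (∀ v, (∃ i, v ∈ P i) ↔ 0 < lev v ∧ lev v < N) →
      (∀ u v, H.Adj u v → 0 < lev u → lev u < N → 0 < lev v → lev v < N →
        ∃ i, u ∈ P i ∧ v ∈ P i) →
      (∀ i, ∀ u ∈ P i, ∀ v ∈ P i, lev u ≤ lev v + 1) →
      (∀ i, ∀ u ∈ P i, ∀ v ∈ P i, u ≠ v → (∃ j < i, u ∈ P j) → (∃ j < i, v ∈ P j) →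
        H.Adj u v ∧ ∃ j < i, u ∈ P j ∧ v ∈ P j) →
      (∀ i, GSid (H.induce (P i : Set V)) fun v => decide (lev v % 2 = 1)) →
      GSid H (fun v => decide (lev v % 2 = 1)) ∧
        ∀ (U : Type) [Finite U] [Nonempty U] (G : SimpleGraph U),
          edgeDensity G ^ Nat.card H.edgeSet ≤ homDensity H G) ∧
    (∀ (V : Type) [Fintype V] [DecidableEq V] (E : Finset (V × V)) (R : V → V → Prop)
      (lev : V → ℕ), LevelClass V E R lev → (∀ e ∈ E, lev e.2 = lev e.1 + 1) →
      ∀ H : SimpleGraph V, (∀ u v, H.Adj u v ↔ (u, v) ∈ E ∨ (v, u) ∈ E) →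
      GSid H (fun v => decide (lev v % 2 = 1)) ∧
        ∀ (U : Type) [Finite U] [Nonempty U] (G : SimpleGraph U),
          edgeDensity G ^ Nat.card H.edgeSet ≤ homDensity H G) := by
  constructor
  · intro V _ _ H lev N k P hN2 hN hne hadj hbot htop hdown hup hP hedge hdist hglue hsid
    have h := two_ends H lev N hN hadj hbot htop hdown hup hne hN2 P hP hedge hdist hglue hsid
    exact ⟨h, fun _ _ _ G => sidorenko_of_gsid h G⟩
  · intro V _ _ E R lev hc hE H hH
    have h := levelClass_gsid hc hE hH
    exact ⟨h, fun _ _ _ G => sidorenko_of_gsid h G⟩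

end Vale.Agent.Results.P050.LevelClass
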