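import Vale.Agent.P050.Ultra.Final

namespace Vale.Agent.Results.P050.ModularTargets

open MeasureTheory Vale.Agent.P050 Vale.Agent.P050.H392 Vale.Agent.P050.H753
  Vale.Agent.P050.Ultra

/-- Sidorenko's inequality for all bipartite graphs and: (1) locally decomposable two-sided
kernels; (2) locally decomposable or tree-like symmetric kernels; (3) graphs with no induced path
on four vertices, and graphs with decomposable adjacency matrix; (4) disjoint unions and joins of
targets satisfying it; (5) kernels with a good block in a module, if they satisfy it after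
replacing the block by its mean. -/
theorem result :
    (∀ (A B Ω₁ Ω₂ : Type) [Fintype A] [Fintype B] [MeasurableSpace Ω₁] [MeasurableSpace Ω₂]
      (μ : Measure Ω₁) (ν : Measure Ω₂) [IsProbabilityMeasure μ] [IsProbabilityMeasure ν]
      (E : Finset (A × B)) (W : Ω₁ → Ω₂ → ℝ) (C : ℝ),
      Measurable (Function.uncurry W) → (∀ s t, 0 ≤ W s t) → (∀ s t, W s t ≤ C) →
      LocallyDecomposable W →
      (∫ s, ∫ t, W s t ∂ν ∂μ) ^ E.card ≤ bipDensity μ ν E W) ∧
    (∀ (V Ω : Type) [Fintype V] [DecidableEq V] [MeasurableSpace Ω]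
      (H : SimpleGraph V) [DecidableRel H.Adj] (μ : Measure Ω) [IsProbabilityMeasure μ]
      (W : Ω → Ω → ℝ) (hW : ∀ s t, W s t = W t s) (C : ℝ),
      H.IsBipartite → Measurable (Function.uncurry W) → (∀ s t, 0 ≤ W s t) →
      (∀ s t, W s t ≤ C) → (LocallyDecomposable W ∨ TreeLike W) →
      (∫ s, ∫ t, W s t ∂μ ∂μ) ^ H.edgeFinset.card ≤ kernelDensity μ H W hW) ∧
    (∀ (U : Type) [Finite U] [Nonempty U] (G : SimpleGraph U),
      (IsEmpty (SimpleGraph.pathGraph 4 ↪g G) ∨ Decomposable (adjm G) Set.univ Set.univ) →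
      SidorenkoAgainst G) ∧
    (∀ (U₁ U₂ : Type) [Finite U₁] [Finite U₂] [Nonempty U₁] [Nonempty U₂]
      (G₁ : SimpleGraph U₁) (G₂ : SimpleGraph U₂),
      SidorenkoAgainst G₁ → SidorenkoAgainst G₂ →
      SidorenkoAgainst (G₁.sum G₂) ∧ SidorenkoAgainst (G₁ᶜ.sum G₂ᶜ)ᶜ) ∧
    (∀ (X Y : Type) [Fintype X] [Fintype Y] [DecidableEq X] [DecidableEq Y]
      (m : X → ℝ) (n : Y → ℝ) (W : X → Y → ℝ) (R : Finset X) (S : Finset Y),
      (∀ x, 0 ≤ m x) → (∀ y, 0 ≤ n y) → (∀ x y, 0 ≤ W x y) →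
      0 < ∑ x ∈ R, m x → 0 < ∑ y ∈ S, n y →
      (∀ x ∈ R, ∀ x' ∈ R, ∀ y ∉ S, W x y = W x' y) →
      (∀ y ∈ S, ∀ y' ∈ S, ∀ x ∉ R, W x y = W x y') →
      BGood (cond m R) (cond n S) W →
      BGood m n (flat W R S (mean (cond m R) (cond n S) W)) → BGood m n W) := by
  refine ⟨?_, ?_, ?_, ?_, ?_⟩
  · intro A B Ω₁ Ω₂ _ _ _ _ μ ν _ _ E W C hm h0 hC h
    exact two_sided μ ν E W C hm h0 hC h
  · intro V Ω _ _ _ H _ μ _ W hW C hH hm h0 hC h
    exact one_sided H μ W hW C hH hm h0 hC (h.elim id TreeLike.locally)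
  · intro U _ _ G h
    exact h.elim against_p4free against_of_decomposable
  · intro U₁ U₂ _ _ _ _ G₁ G₂ h1 h2
    have := Fintype.ofFinite U₁
    have := Fintype.ofFinite U₂
    exact ⟨against_sum h1 h2, against_join h1 h2⟩
  · intro X Y _ _ _ _ m n W R S hm hn hW hR hS h1 h2 hg hf
    exact good_of_flat hm hn hW hR hS h1 h2 hg hf

end Vale.Agent.Results.P050.ModularTargets
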